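import Vale.Agent.P235.ST.H317.Defs2
import Vale.Agent.P235.ST.H119.Clock

/-! P235, (ST) O(1): row `bumps` (r6 + r7). helper27. -/

namespace Vale.Agent.P235.STO.H27

open SimpleGraph

variable {V : Type} (W : LWorld V)

open Vale.Agent.P235.STO.H119 (bi_of_reach D_lip D_T exists_mid)

theorem th_pos (k : ℕ) : 0 < th k := by unfold th; positivity

theorem th_real (k : ℕ) : (th k : ℝ) = 16 * 2 ^ k := by unfold th; push_cast; ring

theorem th_real_pos (k : ℕ) : (0 : ℝ) < th k := by rw [th_real]; positivity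

/-- canonical representative of the band component -/
noncomputable def rep (k m : ℕ) (x : V) : V := ((W.Bg k m).connectedComponentMk x).out

theorem out_inj {α : Type} {r : α → α → Prop} (a b : Quot r) (h : a.out = b.out) : a = b := by
  rw [← Quot.out_eq a, h, Quot.out_eq]

theorem rep_eq_iff {k m : ℕ} {x y : V} :
    rep W k m x = rep W k m y ↔ (W.Bg k m).Reachable x y := by
  unfold rep
  rw [← ConnectedComponent.eq]
  constructor
  · intro h
    exact out_inj _ _ h
  · intro h
    rw [h]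

noncomputable def hd (k m : ℕ) (x : V) : ℝ := min (W.pos k m x : ℝ) ((th k : ℝ) - W.pos k m x)

noncomputable def tent (k m n : ℕ) (x : V) : ℝ :=
  2 ^ (k + 1) - |(W.D k m x : ℝ) - n * 2 ^ (k + 1)|

noncomputable def core (ρ : V → ℝ) (k m n : ℕ) (x : V) : ℝ :=
  max 0 (min (min (4 * dl * ρ x - th k) (2 * th k - d1 * ρ x))
    (min (hd W k m x) (tent W k m n x)))

open Classical in
noncomputable def T (ρ : V → ℝ) (i : ℕ × ℕ × V × ℕ) (x : V) : ℝ :=
  if rep W i.1 i.2.1 x = i.2.2.1 then core W ρ i.1 i.2.1 i.2.2.2 x else 0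

theorem core_nonneg (ρ : V → ℝ) (k m n : ℕ) (x : V) : 0 ≤ core W ρ k m n x := le_max_left _ _

theorem T_nonneg (ρ : V → ℝ) (i : ℕ × ℕ × V × ℕ) (x : V) : 0 ≤ T W ρ i x := by
  unfold T
  split_ifs
  · exact core_nonneg _ _ _ _ _ _
  · exact le_refl _

theorem minlip {a b c d : ℝ} (h1 : |a - c| ≤ 1) (h2 : |b - d| ≤ 1) :
    |min a b - min c d| ≤ 1 := (abs_min_sub_min_le_max a b c d).trans (max_le h1 h2)

theorem maxlip {a b c d : ℝ} (h1 : |a - c| ≤ 1) (h2 : |b - d| ≤ 1) :
    |max a b - max c d| ≤ 1 := (abs_max_sub_max_le_max a b c d).trans (max_le h1 h2)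

theorem pos_eq (k m : ℕ) (x : V) :
    W.pos k m x = (W.u x + m * 2 ^ k) - th k * W.bi k m x := by
  unfold LWorld.pos LWorld.bi
  exact Int.emod_def _ _

theorem pos_nonneg (k m : ℕ) (x : V) : 0 ≤ W.pos k m x := Int.emod_nonneg _ (th_pos k).ne'

theorem pos_lt (k m : ℕ) (x : V) : W.pos k m x < th k := Int.emod_lt_of_pos _ (th_pos k)

theorem hd_le_one {k m : ℕ} {x y : V} (hxy : W.G.Adj x y) (hb : W.bi k m x ≠ W.bi k m y) :
    hd W k m x ≤ 1 := by
  by_contra hlt
  push Not at hlt
  unfold hd at hlt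
  rw [lt_min_iff] at hlt
  obtain ⟨h1, h2⟩ := hlt
  have h1' : 1 < W.pos k m x := by exact_mod_cast h1
  have h2' : 1 < th k - W.pos k m x := by exact_mod_cast h2
  apply hb
  have hu := W.unit x y hxy
  have hp := pos_eq W k m x
  have : (W.u y + m * 2 ^ k) / th k = W.bi k m x ∧
      (W.u y + m * 2 ^ k) % th k = W.pos k m x + (W.u y - W.u x) := by
    rw [Int.ediv_emod_unique (th_pos k)]
    have := abs_le.mp hu.le
    refine ⟨?_, ?_, ?_⟩
    · rw [hp]; ring
    · linarith [this.1, this.2]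
    · linarith [this.1, this.2]
  exact this.1.symm

theorem adj_d {x y : V} (hxy : W.G.Adj x y) : W.d x y = 1 := by
  unfold LWorld.d
  rw [SimpleGraph.dist_eq_one_iff_adj.mpr hxy]
  norm_num

theorem T_le_hd (ρ : V → ℝ) (i : ℕ × ℕ × V × ℕ) (x : V) (h : 0 ≤ hd W i.1 i.2.1 x) :
    T W ρ i x ≤ hd W i.1 i.2.1 x := by
  unfold T
  split_ifs
  · unfold core
    exact max_le h ((min_le_right _ _).trans (min_le_left _ _))
  · exact h

theorem hd_nonneg (k m : ℕ) (x : V) : 0 ≤ hd W k m x := by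
  unfold hd
  have h1 := pos_nonneg W k m x
  have h2 := pos_lt W k m x
  refine le_min (by exact_mod_cast h1) ?_
  have : (W.pos k m x : ℝ) < th k := by exact_mod_cast h2
  linarith

theorem T_edge [Finite V] {ρ : V → ℝ} (h : W.Scale ρ) (i : ℕ × ℕ × V × ℕ) {x y : V}
    (hxy : W.G.Adj x y) : |T W ρ i x - T W ρ i y| ≤ 1 := by
  obtain ⟨k, m, c, n⟩ := i
  by_cases hb : W.bi k m x = W.bi k m y
  · have hadj : (W.Bg k m).Adj x y := ⟨hxy, hb⟩
    have hrep : rep W k m x = rep W k m y := (rep_eq_iff W).mpr hadj.reachable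
    by_cases hc : rep W k m x = c
    · have e1 : T W ρ (k, m, c, n) x = core W ρ k m n x := by
        unfold T; simp [hc]
      have e2 : T W ρ (k, m, c, n) y = core W ρ k m n y := by
        unfold T; simp [← hrep, hc]
      rw [e1, e2]
      unfold core
      have hl := h.lip x y
      rw [adj_d W hxy] at hl
      have hrho : |ρ x - ρ y| ≤ 2 ^ 22 := by
        refine hl.trans ?_
        unfold kap; norm_num
      refine maxlip (by simp) (minlip (minlip ?_ ?_) (minlip ?_ ?_))
      · have : 4 * dl * ρ x - (th k : ℝ) - (4 * dl * ρ y - th k) = 4 * dl * (ρ x - ρ y) := by ring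
        rw [this, abs_mul]
        have h4 : |4 * dl| = 1 / 2 ^ 23 := by
          unfold dl; rw [abs_of_pos (by positivity)]; norm_num
        rw [h4]
        calc 1 / 2 ^ 23 * |ρ x - ρ y| ≤ 1 / 2 ^ 23 * 2 ^ 22 := by gcongr
          _ ≤ 1 := by norm_num
      · have : 2 * (th k : ℝ) - d1 * ρ x - (2 * th k - d1 * ρ y) = - (d1 * (ρ x - ρ y)) := by ring
        rw [this, abs_neg, abs_mul]
        have h4 : |d1| = 1 / 2 ^ 100 := by
          unfold d1; rw [abs_of_pos (by positivity)]
        rw [h4]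
        calc 1 / 2 ^ 100 * |ρ x - ρ y| ≤ 1 / 2 ^ 100 * 2 ^ 22 := by gcongr
          _ ≤ 1 := by norm_num
      · have hpp : |(W.pos k m x : ℝ) - W.pos k m y| ≤ 1 := by
          have h1 := pos_eq W k m x
          have h2 := pos_eq W k m y
          have hu := W.unit x y hxy
          have : W.pos k m x - W.pos k m y = W.u x - W.u y := by
            rw [h1, h2, hb]; ring
          have h3 : |W.pos k m x - W.pos k m y| ≤ 1 := by rw [this, hu]
          exact_mod_cast h3
        unfold hd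
        refine minlip hpp ?_
        have : (th k : ℝ) - W.pos k m x - (th k - W.pos k m y) =
          -((W.pos k m x : ℝ) - W.pos k m y) := by ring
        rw [this, abs_neg]
        exact hpp
      · unfold tent
        have hD : |(W.D k m x : ℝ) - W.D k m y| ≤ 1 := by
          have h1 := D_lip W k m hadj.reachable
          have h2 := D_lip W k m hadj.symm.reachable
          rw [SimpleGraph.dist_eq_one_iff_adj.mpr hadj] at h1
          rw [SimpleGraph.dist_eq_one_iff_adj.mpr hadj.symm] at h2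
          have : |(W.D k m x : ℤ) - W.D k m y| ≤ 1 := by
            rw [abs_le]; constructor <;> push_cast at * <;> linarith
          exact_mod_cast this
        have := abs_abs_sub_abs_le_abs_sub ((W.D k m y : ℝ) - n * 2 ^ (k + 1))
          ((W.D k m x : ℝ) - n * 2 ^ (k + 1))
        have e : (2 : ℝ) ^ (k + 1) - |(W.D k m x : ℝ) - n * 2 ^ (k + 1)| -
          (2 ^ (k + 1) - |(W.D k m y : ℝ) - n * 2 ^ (k + 1)|) =
          |(W.D k m y : ℝ) - n * 2 ^ (k + 1)| - |(W.D k m x : ℝ) - n * 2 ^ (k + 1)| := by ring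
        rw [e]
        refine this.trans ?_
        have e2 : (W.D k m y : ℝ) - n * 2 ^ (k + 1) - ((W.D k m x : ℝ) - n * 2 ^ (k + 1)) =
          -((W.D k m x : ℝ) - W.D k m y) := by ring
        rw [e2, abs_neg]
        exact hD
    · have e1 : T W ρ (k, m, c, n) x = 0 := by
        unfold T; simp [hc]
      have e2 : T W ρ (k, m, c, n) y = 0 := by
        unfold T; simp [← hrep, hc]
      rw [e1, e2]; simp
  · have h1 : T W ρ (k, m, c, n) x ≤ 1 :=
      (T_le_hd W ρ (k, m, c, n) x (hd_nonneg W k m x)).trans (hd_le_one W hxy hb)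
    have h2 : T W ρ (k, m, c, n) y ≤ 1 :=
      (T_le_hd W ρ (k, m, c, n) y (hd_nonneg W k m y)).trans
        (hd_le_one W hxy.symm (Ne.symm hb))
    have h3 := T_nonneg W ρ (k, m, c, n) x
    have h4 := T_nonneg W ρ (k, m, c, n) y
    rw [abs_le]; constructor <;> linarith

/-- thicknesses active at scale `r` -/
noncomputable def kset (K : ℕ) (r : ℝ) : Finset ℕ :=
  open Classical in (Finset.range K).filter fun k => d1 * r < 2 * (th k : ℝ) ∧ (th k : ℝ) < 4 * dl * r

theorem kset_card (K : ℕ) (r : ℝ) : (kset K r).card ≤ 78 := by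
  rcases (kset K r).eq_empty_or_nonempty with h | h
  · rw [h]; simp
  · set k0 := (kset K r).min' h with hk0
    have h0 : k0 ∈ kset K r := Finset.min'_mem _ _
    have hsub : kset K r ⊆ Finset.Ico k0 (k0 + 78) := by
      intro k hk
      rw [Finset.mem_Ico]
      refine ⟨Finset.min'_le _ _ hk, ?_⟩
      by_contra hcon
      push Not at hcon
      unfold kset at h0 hk
      rw [Finset.mem_filter] at h0 hk
      have h1 := h0.2.1
      have h2 := hk.2.2
      rw [th_real] at h1 h2
      have h3 : (2 : ℝ) ^ (k0 + 78) ≤ 2 ^ k := pow_le_pow_right₀ (by norm_num) hcon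
      rw [pow_add] at h3
      unfold d1 at h1
      unfold dl at h2
      have h4 : (0:ℝ) < 2 ^ k0 := by positivity
      have h5 : (1:ℝ) / 2 ^ 100 * r < 2 * (16 * 2 ^ k0) := h1
      have h6 : r < 32 * 2 ^ k0 * 2 ^ 100 := by
        rw [div_mul_eq_mul_div, div_lt_iff₀ (by positivity)] at h5
        linarith
      have h7 : (4:ℝ) * (1 / 2 ^ 25) * r < 4 * (1 / 2 ^ 25) * (32 * 2 ^ k0 * 2 ^ 100) := by
        gcongr
      have h8 : (4:ℝ) * (1 / 2 ^ 25) * (32 * 2 ^ k0 * 2 ^ 100) = 16 * (2 ^ k0 * 2 ^ 78) := by ring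
      linarith
    calc (kset K r).card ≤ (Finset.Ico k0 (k0 + 78)).card := Finset.card_le_card hsub
      _ = 78 := by simp

/-- indices active at `x` -/
noncomputable def act (ρ : V → ℝ) (K : ℕ) (x : V) : Finset (ℕ × ℕ × V × ℕ) :=
  open Classical in
  ((kset K (ρ x)) ×ˢ (Finset.range 16 ×ˢ Finset.range 2)).image fun q =>
    (q.1, q.2.1, rep W q.1 q.2.1 x, W.D q.1 q.2.1 x / 2 ^ (q.1 + 1) + q.2.2)

theorem act_card (ρ : V → ℝ) (K : ℕ) (x : V) : (act W ρ K x).card ≤ 2496 := by
  classical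
  unfold act
  refine Finset.card_image_le.trans ?_
  rw [Finset.card_product, Finset.card_product, Finset.card_range, Finset.card_range]
  have := kset_card K (ρ x)
  omega

theorem tent_pos {k m n : ℕ} {x : V} (h : 0 < tent W k m n x) :
    n = W.D k m x / 2 ^ (k + 1) ∨ n = W.D k m x / 2 ^ (k + 1) + 1 := by
  unfold tent at h
  have h1 : |(W.D k m x : ℝ) - n * 2 ^ (k + 1)| < 2 ^ (k + 1) := by linarith
  rw [abs_lt] at h1
  have h2 : W.D k m x < (n + 1) * 2 ^ (k + 1) := by
    have : (W.D k m x : ℝ) < (n + 1) * 2 ^ (k + 1) := by linarith [h1.2]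
    exact_mod_cast this
  have h3 : n * 2 ^ (k + 1) < W.D k m x + 2 ^ (k + 1) := by
    have : (n : ℝ) * 2 ^ (k + 1) < W.D k m x + 2 ^ (k + 1) := by linarith [h1.1]
    exact_mod_cast this
  have hw : 0 < 2 ^ (k + 1) := by positivity
  have h4 : W.D k m x / 2 ^ (k + 1) < n + 1 := by
    rw [Nat.div_lt_iff_lt_mul hw]; exact h2
  have h5 : n ≤ W.D k m x / 2 ^ (k + 1) + 1 := by
    rw [← Nat.add_div_right _ hw]
    by_contra hcon
    push Not at hcon
    rw [Nat.div_lt_iff_lt_mul hw] at hcon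
    omega
  omega

theorem mem_act {ρ : V → ℝ} {K : ℕ} {x : V} {i : ℕ × ℕ × V × ℕ} (hk : i.1 < K)
    (hm : i.2.1 < 16) (h : T W ρ i x ≠ 0) : i ∈ act W ρ K x := by
  classical
  obtain ⟨k, m, c, n⟩ := i
  have hpos : 0 < T W ρ (k, m, c, n) x := lt_of_le_of_ne (T_nonneg _ _ _ _) h.symm
  unfold T at hpos
  simp only at hpos hk hm
  split_ifs at hpos with hc
  · unfold core at hpos
    rw [lt_max_iff] at hpos
    rcases hpos with hpos | hpos
    · exact absurd hpos (lt_irrefl _)
    rw [lt_min_iff, lt_min_iff, lt_min_iff] at hpos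
    obtain ⟨⟨h1, h2⟩, -, h4⟩ := hpos
    unfold act
    rw [Finset.mem_image]
    rcases tent_pos W h4 with h5 | h5
    · refine ⟨(k, m, 0), ?_, ?_⟩
      · simp only [Finset.mem_product, Finset.mem_range, kset, Finset.mem_filter]
        refine ⟨⟨hk, by linarith, by linarith⟩, hm, by norm_num⟩
      · simp only [hc, h5, add_zero]
    · refine ⟨(k, m, 1), ?_, ?_⟩
      · simp only [Finset.mem_product, Finset.mem_range, kset, Finset.mem_filter]
        refine ⟨⟨hk, by linarith, by linarith⟩, hm, by norm_num⟩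
      · simp only [hc, h5]
  · exact absurd hpos (lt_irrefl _)

theorem T_le (ρ : V → ℝ) (hρ : ∀ x, 0 ≤ ρ x) (i : ℕ × ℕ × V × ℕ) (x : V) :
    T W ρ i x ≤ dl * ρ x / 2 := by
  obtain ⟨k, m, c, n⟩ := i
  have hdl : 0 ≤ dl * ρ x := mul_nonneg (by unfold dl; positivity) (hρ x)
  unfold T
  simp only
  split_ifs
  · unfold core
    refine max_le (by linarith) ?_
    by_cases h1 : 4 * dl * ρ x - th k ≤ 0
    · refine ((min_le_left _ _).trans (min_le_left _ _)).trans ?_
      linarith
    · refine ((min_le_right _ _).trans (min_le_right _ _)).trans ?_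
      unfold tent
      rw [th_real] at h1
      push Not at h1
      have h2 : (2:ℝ) ^ (k + 1) = 2 * 2 ^ k := by ring
      have h3 := abs_nonneg ((W.D k m x : ℝ) - n * 2 ^ (k + 1))
      rw [h2] at h3 ⊢
      linarith
  · linarith

/-- the index set -/
def F [Fintype V] (K M : ℕ) : Finset (ℕ × ℕ × V × ℕ) :=
  Finset.range K ×ˢ (Finset.range 16 ×ˢ (Finset.univ ×ˢ Finset.range M))

theorem sum_edge [Fintype V] {ρ : V → ℝ} (h : W.Scale ρ) (K M : ℕ) {x y : V}
    (hxy : W.G.Adj x y) : ∑ i ∈ F K M, |T W ρ i x - T W ρ i y| ≤ Cf := by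
  classical
  have h1 : ∑ i ∈ F K M, |T W ρ i x - T W ρ i y| ≤
      ∑ i ∈ act W ρ K x ∪ act W ρ K y, (1 : ℝ) := by
    have hs : ∑ i ∈ F K M, |T W ρ i x - T W ρ i y| =
        ∑ i ∈ (F K M).filter (fun i => i ∈ act W ρ K x ∪ act W ρ K y),
          |T W ρ i x - T W ρ i y| := by
      symm
      apply Finset.sum_subset (Finset.filter_subset _ _)
      intro i hi hni
      simp only [F, Finset.mem_product, Finset.mem_range] at hi
      have hn : i ∉ act W ρ K x ∪ act W ρ K y := by
        intro hcon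
        apply hni
        rw [Finset.mem_filter]
        exact ⟨by simp only [F, Finset.mem_product, Finset.mem_range]; exact hi, hcon⟩
      rw [Finset.mem_union, not_or] at hn
      have hx : T W ρ i x = 0 := by
        by_contra hcon
        exact hn.1 (mem_act W hi.1 hi.2.1 hcon)
      have hy : T W ρ i y = 0 := by
        by_contra hcon
        exact hn.2 (mem_act W hi.1 hi.2.1 hcon)
      rw [hx, hy]; simp
    rw [hs]
    calc ∑ i ∈ (F K M).filter (fun i => i ∈ act W ρ K x ∪ act W ρ K y),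
          |T W ρ i x - T W ρ i y|
        ≤ ∑ i ∈ (F K M).filter (fun i => i ∈ act W ρ K x ∪ act W ρ K y), (1:ℝ) :=
          Finset.sum_le_sum fun i _ => T_edge W h i hxy
      _ ≤ ∑ i ∈ act W ρ K x ∪ act W ρ K y, (1 : ℝ) := by
          apply Finset.sum_le_sum_of_subset_of_nonneg
          · intro i hi
            rw [Finset.mem_filter] at hi
            exact hi.2
          · intro i _ _
            norm_num
  refine h1.trans ?_
  rw [Finset.sum_const, nsmul_eq_mul, mul_one]
  have h2 : (act W ρ K x ∪ act W ρ K y).card ≤ 4992 := by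
    have := Finset.card_union_le (act W ρ K x) (act W ρ K y)
    have := act_card W ρ K x
    have := act_card W ρ K y
    omega
  have h3 : ((act W ρ K x ∪ act W ρ K y).card : ℝ) ≤ 4992 := by exact_mod_cast h2
  unfold Cf
  linarith

theorem sum_abs [Fintype V] {ρ : V → ℝ} (h : W.Scale ρ) (K M : ℕ) (x : V) :
    ∑ i ∈ F K M, |T W ρ i x| ≤ ρ x := by
  classical
  have hdl : 0 ≤ dl * ρ x := mul_nonneg (by unfold dl; positivity) (h.nonneg x)
  have h1 : ∑ i ∈ F K M, |T W ρ i x| ≤
      ∑ i ∈ act W ρ K x, (dl * ρ x / 2) := by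
    have hs : ∑ i ∈ F K M, |T W ρ i x| =
        ∑ i ∈ (F K M).filter (fun i => i ∈ act W ρ K x), |T W ρ i x| := by
      symm
      apply Finset.sum_subset (Finset.filter_subset _ _)
      intro i hi hni
      simp only [F, Finset.mem_product, Finset.mem_range] at hi
      have hn : i ∉ act W ρ K x := by
        intro hcon
        apply hni
        rw [Finset.mem_filter]
        exact ⟨by simp only [F, Finset.mem_product, Finset.mem_range]; exact hi, hcon⟩
      have hx : T W ρ i x = 0 := by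
        by_contra hcon
        exact hn (mem_act W hi.1 hi.2.1 hcon)
      rw [hx]; simp
    rw [hs]
    calc ∑ i ∈ (F K M).filter (fun i => i ∈ act W ρ K x), |T W ρ i x|
        ≤ ∑ i ∈ (F K M).filter (fun i => i ∈ act W ρ K x), (dl * ρ x / 2) :=
          Finset.sum_le_sum fun i _ => by
            rw [abs_of_nonneg (T_nonneg _ _ _ _)]
            exact T_le W ρ h.nonneg i x
      _ ≤ ∑ i ∈ act W ρ K x, (dl * ρ x / 2) := by
          apply Finset.sum_le_sum_of_subset_of_nonneg
          · intro i hi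
            rw [Finset.mem_filter] at hi
            exact hi.2
          · intro i _ _
            linarith
  refine h1.trans ?_
  rw [Finset.sum_const, nsmul_eq_mul]
  have h3 : ((act W ρ K x).card : ℝ) ≤ 2496 := by exact_mod_cast act_card W ρ K x
  have h4 : ((act W ρ K x).card : ℝ) * (dl * ρ x / 2) ≤ 2496 * (dl * ρ x / 2) := by
    gcongr
  refine h4.trans ?_
  unfold dl
  have := h.nonneg x
  nlinarith

/-! ### part 2: target pairs -/

theorem tentA (a w : ℕ) (hw : 0 < w) :
    ∃ n ≤ a / w + 1, (w : ℝ) / 2 ≤ w - |(a : ℝ) - n * w| := by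
  have hdm := Nat.div_add_mod a w
  have hlt := Nat.mod_lt a hw
  set q := a / w
  set r := a % w
  have ha : (a : ℝ) = w * q + r := by exact_mod_cast hdm.symm
  have hr : (r : ℝ) < w := by exact_mod_cast hlt
  have hr0 : (0 : ℝ) ≤ r := Nat.cast_nonneg _
  by_cases h : 2 * (r : ℝ) ≤ w
  · refine ⟨q, by omega, ?_⟩
    have : (a : ℝ) - q * w = r := by rw [ha]; ring
    rw [this, abs_of_nonneg hr0]
    linarith
  · push Not at h
    refine ⟨q + 1, le_refl _, ?_⟩
    have : (a : ℝ) - ((q + 1 : ℕ) : ℝ) * w = r - w := by rw [ha]; push_cast; ring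
    rw [this, abs_of_nonpos (by linarith)]
    linarith

theorem tentB (a w : ℕ) (hw : 0 < w) (b : ℝ) (g : ℝ) (hg : 0 ≤ g) (hb : b = a + g) :
    ∃ n ≤ a / w + 1, min g w / 3 ≤
      |max 0 ((w : ℝ) - |(a : ℝ) - n * w|) - max 0 ((w : ℝ) - |b - n * w|)| := by
  have hdm := Nat.div_add_mod a w
  have hlt := Nat.mod_lt a hw
  set q := a / w
  set r := a % w
  have ha : (a : ℝ) = w * q + r := by exact_mod_cast hdm.symm
  have hr : (r : ℝ) < w := by exact_mod_cast hlt
  have hr0 : (0 : ℝ) ≤ r := Nat.cast_nonneg _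
  have hw' : (0 : ℝ) < w := by exact_mod_cast hw
  have hm1 : min g (w : ℝ) ≤ g := min_le_left _ _
  have hm2 : min g (w : ℝ) ≤ w := min_le_right _ _
  have hm0 : 0 ≤ min g (w : ℝ) := le_min hg hw'.le
  by_cases h : min g (w : ℝ) / 3 ≤ w - r
  · refine ⟨q, by omega, ?_⟩
    have e1 : (a : ℝ) - q * w = r := by rw [ha]; ring
    have e2 : b - q * w = r + g := by rw [hb, ha]; ring
    rw [e1, e2, abs_of_nonneg hr0, abs_of_nonneg (by linarith : (0:ℝ) ≤ r + g),
      max_eq_right (by linarith : (0:ℝ) ≤ w - r)]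
    have : max 0 ((w : ℝ) - (r + g)) ≤ w - r - min g w / 3 := by
      apply max_le
      · linarith
      · linarith
    refine le_trans ?_ (le_abs_self _)
    linarith
  · push Not at h
    refine ⟨q + 1, le_refl _, ?_⟩
    have e1 : (a : ℝ) - ((q + 1 : ℕ) : ℝ) * w = r - w := by rw [ha]; push_cast; ring
    have e2 : b - ((q + 1 : ℕ) : ℝ) * w = r + g - w := by rw [hb, ha]; push_cast; ring
    rw [e1, e2, abs_of_nonpos (by linarith : (r:ℝ) - w ≤ 0),
      abs_of_nonneg (by linarith : (0:ℝ) ≤ r + g - w),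
      max_eq_right (by linarith : (0:ℝ) ≤ w - -(r - w))]
    have : max 0 ((w : ℝ) - (r + g - w)) ≤ r - min g w / 3 := by
      apply max_le
      · linarith
      · linarith
    refine le_trans ?_ (le_abs_self _)
    linarith

theorem exists_k (t : ℝ) (ht : 16 ≤ t) : ∃ k, t / 2 < (th k : ℝ) ∧ (th k : ℝ) ≤ t := by
  obtain ⟨n, h1, h2⟩ := exists_nat_pow_near (x := t / 16) (y := 2) (by linarith) (by norm_num)
  refine ⟨n, ?_, ?_⟩
  · rw [th_real]
    rw [pow_succ] at h2
    linarith
  · rw [th_real]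
    linarith

theorem core_eq {ρ : V → ℝ} {k m n : ℕ} {x : V} (hA : 2 ^ (k + 1) ≤ 4 * dl * ρ x - th k)
    (hB : 2 ^ (k + 1) ≤ 2 * (th k : ℝ) - d1 * ρ x) (hh : 2 ^ (k + 1) ≤ hd W k m x) :
    core W ρ k m n x = max 0 (tent W k m n x) := by
  unfold core
  have ht : tent W k m n x ≤ 2 ^ (k + 1) := by
    unfold tent
    have := abs_nonneg ((W.D k m x : ℝ) - n * 2 ^ (k + 1))
    linarith
  rw [min_eq_right (ht.trans hh), min_eq_right (ht.trans (le_min hA hB))]

theorem hd_mid {k m : ℕ} {x : V} (h : W.mid k m x) : 2 ^ (k + 1) ≤ hd W k m x := by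
  unfold hd
  obtain ⟨h1, h2⟩ := h
  have h1' : (4 : ℝ) * 2 ^ k ≤ W.pos k m x := by exact_mod_cast h1
  have h2' : (W.pos k m x : ℝ) ≤ 12 * 2 ^ k := by exact_mod_cast h2
  have h3 : (0:ℝ) < 2 ^ k := by positivity
  rw [th_real, pow_succ]
  apply le_min <;> linarith

theorem hd_congr {k m : ℕ} {x y : V} (h : W.u x = W.u y) : hd W k m x = hd W k m y := by
  unfold hd LWorld.pos
  rw [h]

/-- the near pairs: a good clock exists -/
theorem near_clock [Finite V] {ρ : V → ℝ} {z y : V} (hz : z ∈ W.N) (hy : y ∈ W.N)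
    (hi : W.idx z ≤ W.idx y) (hd0 : r0 ≤ W.d z y) (hn : 2 * W.d z y ≤ kap * ρ z)
    (hs : ∃ k m, m < 16 ∧ inList (ρ z) k ∧ W.serves k m z y) :
    ∃ k m, m < 16 ∧ inList (ρ z) k ∧ W.mid k m z ∧ W.d z y / 16 ≤ (th k : ℝ) ∧
      ((W.Bg k m).Reachable z y → cp * W.d z y ≤ (W.D k m y : ℝ) - (W.D k m z : ℝ)) := by
  obtain ⟨k, m, hm, hk, hmid, hserv⟩ := hs
  by_cases hth : W.d z y / 16 ≤ (th k : ℝ)
  · refine ⟨k, m, hm, hk, hmid, hth, fun hr => ?_⟩
    rcases hserv with h | h
    · exact absurd hr h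
    · exact h
  · push Not at hth
    have hbig : (16 : ℝ) ≤ W.d z y / 8 := by
      unfold r0 at hd0
      have : (128 : ℝ) ≤ 2 ^ 90 := by norm_num
      linarith
    obtain ⟨k', h1, h2⟩ := exists_k (W.d z y / 8) hbig
    obtain ⟨m', hm', hmid'⟩ := exists_mid W k' z
    refine ⟨k', m', hm', ⟨?_, ?_⟩, hmid', by linarith, fun hr => ?_⟩
    · have := hk.1
      linarith
    · have h3 : kap = 8 * dl := by unfold kap dl; norm_num
      rw [h3] at hn
      linarith
    · have h3 := D_T W k' m' hz hy hr hi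
      have h4 := (bi_of_reach W k' m' hr).2
      have h5 : (W.D k' m' z : ℝ) + ((W.Bg k' m').dist z y : ℝ) ≤ W.D k' m' y + 2 * th k' := by
        exact_mod_cast h3
      have h6 : W.d z y ≤ ((W.Bg k' m').dist z y : ℝ) := by
        unfold LWorld.d; exact_mod_cast h4
      have h7 : cp * W.d z y ≤ 1 / 2 * W.d z y := by
        have : 0 ≤ W.d z y := by unfold LWorld.d; positivity
        have : cp ≤ 1 / 2 := by unfold cp; norm_num
        gcongr
      have : 0 ≤ W.d z y := by unfold LWorld.d; positivity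
      linarith

theorem T_self {ρ : V → ℝ} {k m n : ℕ} {z x : V} (h : rep W k m x = rep W k m z) :
    T W ρ (k, m, rep W k m z, n) x = core W ρ k m n x := by
  unfold T; simp [h]

theorem T_other {ρ : V → ℝ} {k m n : ℕ} {z x : V} (h : rep W k m x ≠ rep W k m z) :
    T W ρ (k, m, rep W k m z, n) x = 0 := by
  unfold T; simp [h]

theorem tent_cast (k m n : ℕ) (x : V) :
    tent W k m n x = ((2 ^ (k + 1) : ℕ) : ℝ) - |(W.D k m x : ℝ) - n * ((2 ^ (k + 1) : ℕ) : ℝ)| := by
  unfold tent; push_cast; rfl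

/-- main lemma of part 2 -/
theorem good_index [Finite V] {ρ : V → ℝ} (h : W.Scale ρ) {z y : V} (hz : z ∈ W.N)
    (hy : y ∈ W.N) (hu : W.u z = W.u y) (hi : W.idx z ≤ W.idx y) (hd0 : r0 ≤ W.d z y)
    (hle : W.d z y ≤ ρ z)
    (hs : kap * ρ z < 2 * W.d z y ∨ ∃ k m, m < 16 ∧ inList (ρ z) k ∧ W.serves k m z y) :
    ∃ k m n, m < 16 ∧ (th k : ℝ) ≤ dl * ρ z ∧ n ≤ W.D k m z + 1 ∧
      1 / 2 ^ 32 * W.d z y ≤ |T W ρ (k, m, rep W k m z, n) z - T W ρ (k, m, rep W k m z, n) y| := by
  have hdpos : 0 < W.d z y := lt_of_lt_of_le (by unfold r0; positivity) hd0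
  have hρ0 := h.nonneg z
  by_cases hfar : kap * ρ z < 2 * W.d z y
  · -- far case
    have hbig : (16 : ℝ) ≤ dl * ρ z / 2 := by
      unfold r0 at hd0
      unfold dl
      have h2 : (2:ℝ) ^ 90 ≤ ρ z := hd0.trans hle
      have h3 : (1:ℝ) / 2 ^ 25 * 2 ^ 90 / 2 ≤ 1 / 2 ^ 25 * ρ z / 2 := by gcongr
      refine le_trans ?_ h3
      norm_num
    obtain ⟨k, h1, h2⟩ := exists_k _ hbig
    obtain ⟨m, hm, hmid⟩ := exists_mid W k z
    obtain ⟨n, hn, hnt⟩ := tentA (W.D k m z) (2 ^ (k + 1)) (by positivity)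
    have hthp := th_real_pos k
    have hw : (2 : ℝ) ^ (k + 1) = th k / 8 := by rw [th_real]; ring
    have hwp : (0:ℝ) < 2 ^ (k + 1) := by positivity
    refine ⟨k, m, n, hm, by linarith, ?_, ?_⟩
    · exact hn.trans (Nat.add_le_add_right (Nat.div_le_self _ _) 1)
    · have hBz : d1 * ρ z ≤ (th k : ℝ) := by
        have : d1 * ρ z ≤ dl * ρ z / 4 := by
          unfold d1 dl
          nlinarith
        linarith
      have hTz : T W ρ (k, m, rep W k m z, n) z = max 0 (tent W k m n z) := by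
        rw [T_self W rfl]
        refine core_eq W ?_ ?_ (hd_mid W hmid)
        · rw [hw]; linarith
        · rw [hw]; linarith
      have hTz' : (th k : ℝ) / 16 ≤ T W ρ (k, m, rep W k m z, n) z := by
        rw [hTz]
        refine le_trans ?_ (le_max_right _ _)
        rw [tent_cast]
        refine le_trans (le_of_eq ?_) hnt
        push_cast
        rw [hw]; ring
      have hTy : T W ρ (k, m, rep W k m z, n) y ≤ 0 := by
        by_cases hr : (W.Bg k m).Reachable z y
        · rw [T_self W ((rep_eq_iff W).mpr hr).symm]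
          unfold core
          refine max_le le_rfl (((min_le_right _ _).trans (min_le_right _ _)).trans ?_)
          have h3 := D_T W k m hz hy hr hi
          have h4 := (bi_of_reach W k m hr).2
          have h5 : (W.D k m z : ℝ) + ((W.Bg k m).dist z y : ℝ) ≤ W.D k m y + 2 * th k := by
            exact_mod_cast h3
          have h6 : W.d z y ≤ ((W.Bg k m).dist z y : ℝ) := by
            unfold LWorld.d; exact_mod_cast h4
          have h7 : (th k : ℝ) ≤ W.d z y / 8 := by
            have h8 : kap = 8 * dl := by unfold kap dl; norm_num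
            rw [h8] at hfar
            linarith
          have h9 : |(W.D k m z : ℝ) - n * 2 ^ (k + 1)| ≤ 2 ^ (k + 1) / 2 := by
            push_cast at hnt
            linarith
          rw [abs_le] at h9
          unfold tent
          have h10 := le_abs_self ((W.D k m y : ℝ) - n * 2 ^ (k + 1))
          linarith [h9.1]
        · rw [T_other W (fun hcon => hr ((rep_eq_iff W).mp hcon).symm)]
      have hfin : 1 / 2 ^ 32 * W.d z y ≤ (th k : ℝ) / 16 := by
        have : dl * W.d z y / 4 ≤ dl * ρ z / 4 := by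
          have : 0 ≤ dl := by unfold dl; positivity
          gcongr
        have h12 : 1 / 2 ^ 32 * W.d z y ≤ dl * W.d z y / 4 / 16 := by
          unfold dl
          nlinarith
        linarith
      refine hfin.trans (hTz'.trans (le_trans ?_ (le_abs_self _)))
      linarith
  · -- near case
    push Not at hfar
    have hs' : ∃ k m, m < 16 ∧ inList (ρ z) k ∧ W.serves k m z y := by
      rcases hs with hs | hs
      · exact absurd hs (not_lt.mpr hfar)
      · exact hs
    obtain ⟨k, m, hm, hk, hmid, hth, hD⟩ := near_clock W hz hy hi hd0 hfar hs'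
    have hthp := th_real_pos k
    have hw : (2 : ℝ) ^ (k + 1) = th k / 8 := by rw [th_real]; ring
    have hwp : (0:ℝ) < 2 ^ (k + 1) := by positivity
    have hkd := hk.1
    have hkl := hk.2
    have hl := h.lip z y
    have hl2 : W.d z y / kap ≤ ρ z / 2 := by
      rw [div_le_iff₀ (by unfold kap; positivity)]
      linarith
    have hl3 := abs_le.mp (hl.trans hl2)
    have hdl0 : 0 ≤ dl := by unfold dl; positivity
    have hd10 : 0 ≤ d1 := by unfold d1; positivity
    have hy1 : dl * ρ z / 2 ≤ dl * ρ y := by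
      have : dl * (ρ z / 2) ≤ dl * ρ y := mul_le_mul_of_nonneg_left (by linarith [hl3.2]) hdl0
      linarith
    have hy2 : d1 * ρ y ≤ d1 * ρ z * (3 / 2) := by
      have : d1 * ρ y ≤ d1 * (ρ z * (3 / 2)) :=
        mul_le_mul_of_nonneg_left (by linarith [hl3.1]) hd10
      linarith
    have hcz : ∀ n, core W ρ k m n z = max 0 (tent W k m n z) := fun n =>
      core_eq W (by rw [hw]; linarith) (by rw [hw]; linarith) (hd_mid W hmid)
    have hcy : ∀ n, core W ρ k m n y = max 0 (tent W k m n y) := fun n =>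
      core_eq W (by rw [hw]; linarith) (by rw [hw]; linarith)
        (by rw [← hd_congr W hu]; exact hd_mid W hmid)
    by_cases hr : (W.Bg k m).Reachable z y
    · have hg := hD hr
      have hg0 : 0 ≤ (W.D k m y : ℝ) - W.D k m z :=
        le_trans (mul_nonneg (by unfold cp; positivity) hdpos.le) hg
      obtain ⟨n, hn, hnt⟩ := tentB (W.D k m z) (2 ^ (k + 1)) (by positivity) (W.D k m y : ℝ)
        ((W.D k m y : ℝ) - W.D k m z) hg0 (by ring)
      refine ⟨k, m, n, hm, hkl, ?_, ?_⟩
      · exact hn.trans (Nat.add_le_add_right (Nat.div_le_self _ _) 1)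
      · rw [T_self W rfl, T_self W ((rep_eq_iff W).mpr hr).symm, hcz, hcy, tent_cast, tent_cast]
        refine le_trans ?_ hnt
        have h1 : 3 / 2 ^ 32 * W.d z y ≤ min ((W.D k m y : ℝ) - W.D k m z)
            ((2 ^ (k + 1) : ℕ) : ℝ) := by
          apply le_min
          · refine le_trans ?_ hg
            unfold cp
            nlinarith
          · push_cast
            rw [hw]
            nlinarith
        linarith
    · obtain ⟨n, hn, hnt⟩ := tentA (W.D k m z) (2 ^ (k + 1)) (by positivity)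
      refine ⟨k, m, n, hm, hkl, ?_, ?_⟩
      · exact hn.trans (Nat.add_le_add_right (Nat.div_le_self _ _) 1)
      · rw [T_self W rfl, T_other W (fun hcon => hr ((rep_eq_iff W).mp hcon).symm), hcz,
          sub_zero, abs_of_nonneg (le_max_left _ _)]
        refine le_trans ?_ (le_max_right _ _)
        rw [tent_cast]
        refine le_trans ?_ hnt
        push_cast
        rw [hw]
        nlinarith

theorem exists_K [Fintype V] {ρ : V → ℝ} (h : W.Scale ρ) : ∃ K : ℕ, ∀ x, ρ x < 2 ^ K := by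
  obtain ⟨K, hK⟩ := pow_unbounded_of_one_lt (∑ x, ρ x) (one_lt_two : (1:ℝ) < 2)
  refine ⟨K, fun x => lt_of_le_of_lt ?_ hK⟩
  exact Finset.single_le_sum (f := ρ) (fun i _ => h.nonneg i) (Finset.mem_univ x)

/-- row `bumps`, `tgt` unfolded (only the used parts) -/
theorem bumps' [Fintype V] {ρ : V → ℝ} (h : W.Scale ρ) :
    ∃ (ι : Type) (_ : Fintype ι) (T : ι → V → ℝ),
    (∀ x y, W.G.Adj x y → ∑ i, |T i x - T i y| ≤ Cf) ∧ (∀ x, ∑ i, |T i x| ≤ ρ x) ∧
    ∀ z y, z ∈ W.N → y ∈ W.N → W.u z = W.u y → W.idx z ≤ W.idx y → r0 ≤ W.d z y →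
      W.d z y ≤ ρ z →
      (kap * ρ z < 2 * W.d z y ∨ ∃ k m, m < 16 ∧ inList (ρ z) k ∧ W.serves k m z y) →
      ∃ i, 1 / 2 ^ 32 * W.d z y ≤ |T i z - T i y| := by
  classical
  obtain ⟨K, hK⟩ := exists_K W h
  set M : ℕ := ∑ k ∈ Finset.range K, ∑ m ∈ Finset.range 16, ∑ x, W.D k m x + 2 with hM
  refine ⟨F K M, inferInstance, fun i => T W ρ i.1, ?_, ?_, ?_⟩
  · intro x y hxy
    rw [Finset.sum_coe_sort (F K M) (fun i => |T W ρ i x - T W ρ i y|)]
    exact sum_edge W h K M hxy
  · intro x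
    rw [Finset.sum_coe_sort (F K M) (fun i => |T W ρ i x|)]
    exact sum_abs W h K M x
  · intro z y hz hy hu hi hd0 hle hs
    obtain ⟨k, m, n, hm, hk, hn, hfin⟩ := good_index W h hz hy hu hi hd0 hle hs
    have hkK : k < K := by
      have h1 := hK z
      have h2 : dl * ρ z ≤ ρ z := by
        have := h.nonneg z
        have h3 : dl ≤ 1 := by unfold dl; norm_num
        nlinarith
      rw [th_real] at hk
      have h4 : (0:ℝ) < 2 ^ k := by positivity
      have h5 : (2:ℝ) ^ k < 2 ^ K := by linarith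
      exact (pow_lt_pow_iff_right₀ (one_lt_two : (1:ℝ) < 2)).mp h5
    have hnM : n < M := by
      have h1 : W.D k m z ≤ ∑ x, W.D k m x :=
        Finset.single_le_sum (f := fun x => W.D k m x) (fun _ _ => Nat.zero_le _)
          (Finset.mem_univ z)
      have h2 : ∑ x, W.D k m x ≤ ∑ m ∈ Finset.range 16, ∑ x, W.D k m x :=
        Finset.single_le_sum (f := fun m => ∑ x, W.D k m x) (fun _ _ => Nat.zero_le _)
          (Finset.mem_range.mpr hm)
      have h3 : ∑ m ∈ Finset.range 16, ∑ x, W.D k m x ≤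
          ∑ k ∈ Finset.range K, ∑ m ∈ Finset.range 16, ∑ x, W.D k m x :=
        Finset.single_le_sum (f := fun k => ∑ m ∈ Finset.range 16, ∑ x, W.D k m x)
          (fun _ _ => Nat.zero_le _) (Finset.mem_range.mpr hkK)
      omega
    refine ⟨⟨(k, m, rep W k m z, n), ?_⟩, hfin⟩
    simp only [F, Finset.mem_product, Finset.mem_range, Finset.mem_univ, true_and]
    exact ⟨hkK, hm, hnM⟩

/-- row `bumps` (r6 + r7), official statement -/
theorem bumps [Fintype V] {ρ : V → ℝ} (h : W.Scale ρ) :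
    ∃ (ι : Type) (_ : Fintype ι) (T : ι → V → ℝ),
    (∀ x y, W.G.Adj x y → ∑ i, |T i x - T i y| ≤ Cf) ∧ (∀ x, ∑ i, |T i x| ≤ ρ x) ∧
    ∀ z y, W.tgt ρ z y → ∃ i, 1 / 2 ^ 32 * W.d z y ≤ |T i z - T i y| := by
  obtain ⟨ι, hι, T, h1, h2, h3⟩ := bumps' W h
  refine ⟨ι, hι, T, h1, h2, fun z y ht => ?_⟩
  obtain ⟨hz, hy, hu, hi, hd0, -, hle, hs⟩ := ht
  exact h3 z y hz hy hu hi hd0 hle hs

end Vale.Agent.P235.STO.H27
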